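import Crest.Agent.N76.G.Defs

/-! # Row 76: the overlap of two Gaussian coherent states -/

set_option autoImplicit false

open MeasureTheory Set Metric
open scoped ENNReal RealInnerProductSpace ComplexConjugate

namespace Crest.Agent.N76.G

open Crest.Agent.N76.Red (V)

variable {d : ℕ}

/-- a Gaussian integral with two linear terms -/
theorem integral_gauss_two {b : ℂ} (hb : 0 < b.re) (c₁ c₂ : ℂ) (w₁ w₂ : V d) :
    ∫ v : V d, Complex.exp (-b * ((‖v‖ ^ 2 : ℝ) : ℂ) + c₁ * (⟪w₁, v⟫ : ℝ) + c₂ * (⟪w₂, v⟫ : ℝ)) =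
      (Real.pi / b) ^ ((d : ℂ) / 2) * Complex.exp ((c₁ ^ 2 * ((‖w₁‖ ^ 2 : ℝ) : ℂ) +
        2 * c₁ * c₂ * (⟪w₁, w₂⟫ : ℝ) + c₂ ^ 2 * ((‖w₂‖ ^ 2 : ℝ) : ℂ)) / (4 * b)) := by
  rw [← (PiLp.volume_preserving_toLp (Fin d)).integral_comp
    (MeasurableEquiv.toLp 2 _).measurableEmbedding]
  have h := GaussianFourier.integral_cexp_neg_mul_sum_add hb fun i => c₁ * w₁ i + c₂ * w₂ i
  rw [Fintype.card_fin] at h
  refine Eq.trans (integral_congr_ae (.of_forall fun v => ?_)) (h.trans ?_)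
  · simp only [EuclideanSpace.real_norm_sq_eq, PiLp.inner_apply, RCLike.inner_apply, conj_trivial,
      add_mul, Finset.sum_add_distrib, Finset.mul_sum, add_assoc]
    push_cast
    simp only [Finset.mul_sum]
    congr 3 <;> exact Finset.sum_congr rfl fun i _ => by ring
  · simp only [EuclideanSpace.real_norm_sq_eq, PiLp.inner_apply, RCLike.inner_apply, conj_trivial]
    push_cast
    simp only [Finset.mul_sum, ← Finset.sum_add_distrib]
    congr 4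
    funext i; ring

theorem continuous_gamF (a t : ℝ) (β : Ph d) : Continuous (gamF a t β) := by
  unfold gamF; fun_prop

theorem norm_gamF (a t : ℝ) (β : Ph d) (ξ : V d) :
    ‖gamF a t β ξ‖ = (2 * a ^ 2) ^ ((d : ℝ) / 4) * Real.exp (-Real.pi * a ^ 2 * ‖ξ - β.2‖ ^ 2) := by
  unfold gamF
  rw [norm_mul, Complex.norm_real, Real.norm_of_nonneg (by positivity), Complex.norm_exp]
  congr 2
  simp only [← Complex.ofReal_pow, Complex.sub_re, Complex.mul_re, Complex.neg_re, Complex.add_re,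
    Complex.ofReal_re, Complex.ofReal_im, Complex.I_re, Complex.I_im, Complex.mul_im,
    Complex.neg_im, Complex.add_im, Complex.re_ofNat, Complex.im_ofNat]
  ring

theorem memLp_gamF {a : ℝ} (ha : 0 < a) (t : ℝ) (β : Ph d) : MemLp (gamF a t β) 2 volume := by
  rw [memLp_two_iff_integrable_sq_norm (continuous_gamF a t β).aestronglyMeasurable]
  have h1 := (GaussianFourier.integrable_cexp_neg_mul_sq_norm_add (V := V d)
    (b := ((2 * Real.pi * a ^ 2 : ℝ) : ℂ)) (by rw [Complex.ofReal_re]; positivity) 0 0).norm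
  refine ((h1.comp_sub_right β.2).const_mul (((2 * a ^ 2) ^ ((d : ℝ) / 4)) ^ 2)).congr
    (.of_forall fun ξ => ?_)
  simp only [norm_gamF, mul_pow, zero_mul, add_zero, Complex.norm_exp]
  rw [← Real.exp_nat_mul]
  congr 2
  rw [← Complex.ofReal_pow, ← Complex.ofReal_neg, ← Complex.ofReal_mul, Complex.ofReal_re]
  push_cast; ring

theorem gam_eq {a : ℝ} (ha : 0 < a) (t : ℝ) (β : Ph d) :
    gam a t β = (memLp_gamF ha t β).toLp _ := dif_pos _

theorem coeFn_gam {a : ℝ} (ha : 0 < a) (t : ℝ) (β : Ph d) : gam a t β =ᵐ[volume] gamF a t β := by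
  rw [gam_eq ha]; exact MemLp.coeFn_toLp _

theorem co_eq {a : ℝ} (ha : 0 < a) (t : ℝ) (h : L2 d) (β : Ph d) :
    co a t h β = ∫ ξ, conj (gamF a t β ξ) * h ξ := by
  rw [co, L2.inner_def]
  refine integral_congr_ae ((coeFn_gam ha t β).mono fun ξ hξ => ?_)
  simp only [hξ, RCLike.inner_apply, mul_comm]

theorem conj_gamF (a t : ℝ) (β : Ph d) (ξ : V d) :
    conj (gamF a t β ξ) = (((2 * a ^ 2) ^ ((d : ℝ) / 4) : ℝ) : ℂ) *
      Complex.exp (-(Real.pi : ℂ) * ((a : ℂ) ^ 2 - 2 * (t : ℂ) * Complex.I) *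
        ((‖ξ - β.2‖ ^ 2 : ℝ) : ℂ) + 2 * (Real.pi : ℂ) * Complex.I * ((⟪β.1, ξ⟫ : ℝ) : ℂ)) := by
  unfold gamF
  rw [map_mul, Complex.conj_ofReal, ← Complex.exp_conj]
  congr 2
  simp only [map_sub, map_mul, map_neg, map_add, map_pow, Complex.conj_ofReal, Complex.conj_I,
    map_ofNat]
  ring

theorem re_sig_pos {a a' : ℝ} (ha : 0 < a) (ha' : 0 < a') (t t' : ℝ) :
    0 < (((a : ℂ) ^ 2 - 2 * t * Complex.I) + ((a' : ℂ) ^ 2 + 2 * t' * Complex.I)).re := by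
  simp only [← Complex.ofReal_pow, Complex.sub_re, Complex.mul_re, Complex.add_re,
    Complex.ofReal_re, Complex.ofReal_im, Complex.I_re, Complex.I_im, Complex.mul_im,
    Complex.re_ofNat, Complex.im_ofNat]
  linarith [pow_pos ha 2, pow_pos ha' 2]

/-- exact overlap, `A = a²+2it`, `A' = a'²+2it'`, `S = conj A + A'` -/
theorem inner_gam {a a' : ℝ} (ha : 0 < a) (ha' : 0 < a') (t t' : ℝ) (β β' : Ph d) :
    inner ℂ (gam a t β) (gam a' t' β') =
      (((4 * a ^ 2 * a' ^ 2) ^ ((d : ℝ) / 4) : ℝ) : ℂ) *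
      (1 / (((a : ℂ) ^ 2 - 2 * t * Complex.I) + ((a' : ℂ) ^ 2 + 2 * t' * Complex.I))) ^ ((d : ℂ) / 2) *
      Complex.exp (Real.pi * (-(((a : ℂ) ^ 2 - 2 * t * Complex.I) * ((a' : ℂ) ^ 2 + 2 * t' * Complex.I))
            * ((‖β.2 - β'.2‖ ^ 2 : ℝ) : ℂ)
          + 2 * Complex.I * ((a : ℂ) ^ 2 - 2 * t * Complex.I) * ((⟪β.2 - β'.2, β.1 - β'.1⟫ : ℝ) : ℂ)
          - ((‖β.1 - β'.1‖ ^ 2 : ℝ) : ℂ))
          / (((a : ℂ) ^ 2 - 2 * t * Complex.I) + ((a' : ℂ) ^ 2 + 2 * t' * Complex.I))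
        + 2 * Real.pi * Complex.I * ((⟪β.1 - β'.1, β'.2⟫ : ℝ) : ℂ)) := by
  have hS := re_sig_pos ha ha' t t'
  set A : ℂ := (a : ℂ) ^ 2 - 2 * t * Complex.I with hA
  set A' : ℂ := (a' : ℂ) ^ 2 + 2 * t' * Complex.I with hA'
  have hS0 : A + A' ≠ 0 := fun h => by rw [h] at hS; simp at hS
  have hπ : (Real.pi : ℂ) ≠ 0 := Complex.ofReal_ne_zero.2 Real.pi_ne_zero
  have h1 : inner ℂ (gam a t β) (gam a' t' β') = ∫ ξ, conj (gamF a t β ξ) * gamF a' t' β' ξ := by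
    rw [← co, co_eq ha]
    exact integral_congr_ae ((coeFn_gam ha' t' β').mono fun ξ hξ => by simp only [hξ])
  have h2 := integral_gauss_two (b := Real.pi * (A + A'))
    (by rw [Complex.re_ofReal_mul]; exact mul_pos Real.pi_pos hS) (2 * Real.pi * A)
    (2 * Real.pi * Complex.I) (β.2 - β'.2) (β.1 - β'.1)
  have h3 : ∀ v : V d, conj (gamF a t β (v + β'.2)) * gamF a' t' β' (v + β'.2) =
      ((((4 * a ^ 2 * a' ^ 2) ^ ((d : ℝ) / 4) : ℝ) : ℂ) *
        Complex.exp (-(Real.pi * A * ((‖β.2 - β'.2‖ ^ 2 : ℝ) : ℂ)) +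
          2 * Real.pi * Complex.I * ((⟪β.1 - β'.1, β'.2⟫ : ℝ) : ℂ))) *
      Complex.exp (-(Real.pi * (A + A')) * ((‖v‖ ^ 2 : ℝ) : ℂ) +
        2 * Real.pi * A * (⟪β.2 - β'.2, v⟫ : ℝ) + 2 * Real.pi * Complex.I * (⟪β.1 - β'.1, v⟫ : ℝ)) := by
    intro v
    rw [conj_gamF, gamF, mul_mul_mul_comm, ← Complex.ofReal_mul,
      ← Real.mul_rpow (by positivity) (by positivity), ← Complex.exp_add,
      show 2 * a ^ 2 * (2 * a' ^ 2) = 4 * a ^ 2 * a' ^ 2 by ring, mul_assoc _ (Complex.exp _),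
      ← Complex.exp_add]
    congr 2
    rw [add_sub_cancel_right, show v + β'.2 - β.2 = v - (β.2 - β'.2) by abel, norm_sub_sq_real,
      real_inner_comm (β.2 - β'.2) v, ← hA, ← hA']
    simp only [inner_add_right, inner_sub_left β.1]
    push_cast
    ring
  rw [h1, ← integral_add_right_eq_self _ β'.2]
  simp only [h3]
  rw [integral_const_mul, h2, ← div_div, div_self hπ, mul_mul_mul_comm, ← Complex.exp_add]
  congr 2
  field_simp
  linear_combination (4 * ((‖β.1 - β'.1‖ ^ 2 : ℝ) : ℂ)) * Complex.I_sq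

theorem sig_pos {a a' : ℝ} (ha : 0 < a) (t t' : ℝ) : 0 < sig a t a' t' := by
  unfold sig; positivity

theorem norm_sq_pos (t : ℝ) (Δ : Ph d) :
    ‖pos t Δ‖ ^ 2 = ‖Δ.1‖ ^ 2 - 4 * t * ⟪Δ.2, Δ.1⟫ + 4 * t ^ 2 * ‖Δ.2‖ ^ 2 := by
  rw [pos, norm_sub_sq_real, inner_smul_right, norm_smul, mul_pow, Real.norm_eq_abs, sq_abs,
    real_inner_comm]
  ring

theorem norm_inner_gam {a a' : ℝ} (ha : 0 < a) (ha' : 0 < a') (t t' : ℝ) (β β' : Ph d) :
    ‖inner ℂ (gam a t β) (gam a' t' β')‖ =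
      pre d a t a' t' * Real.exp (-Real.pi * Qf a t a' t' (β - β')) := by
  have hs := sig_pos (a' := a') ha t t'
  have hn : Complex.normSq (((a : ℂ) ^ 2 - 2 * t * Complex.I) +
      ((a' : ℂ) ^ 2 + 2 * t' * Complex.I)) = sig a t a' t' := by
    simp only [Complex.normSq_apply, ← Complex.ofReal_pow, Complex.sub_re, Complex.mul_re,
      Complex.add_re, Complex.ofReal_re, Complex.ofReal_im, Complex.I_re, Complex.I_im,
      Complex.mul_im, Complex.re_ofNat, Complex.im_ofNat, Complex.add_im, Complex.sub_im, sig]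
    ring
  rw [inner_gam ha ha', norm_mul, norm_mul, Complex.norm_exp, Complex.norm_real,
    Real.norm_of_nonneg (by positivity)]
  congr 1
  · rw [show ((d : ℂ) / 2) = (((d : ℝ) / 2 : ℝ) : ℂ) by push_cast; rfl, Complex.norm_cpow_real,
      norm_div, norm_one, Complex.norm_def, hn, pre, Real.div_rpow (by positivity) hs.le,
      Real.div_rpow zero_le_one (Real.sqrt_nonneg _), Real.one_rpow, Real.sqrt_eq_rpow,
      ← Real.rpow_mul hs.le, show 1 / 2 * ((d : ℝ) / 2) = d / 4 by ring]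
    ring
  · congr 1
    rw [Complex.add_re, Complex.div_re, hn, Qf, norm_sq_pos, norm_sq_pos]
    simp only [← Complex.ofReal_pow, Complex.sub_re, Complex.mul_re, Complex.neg_re,
      Complex.add_re, Complex.ofReal_re, Complex.ofReal_im, Complex.I_re, Complex.I_im,
      Complex.mul_im, Complex.re_ofNat, Complex.im_ofNat, Complex.add_im, Complex.sub_im,
      Complex.neg_im, Prod.fst_sub, Prod.snd_sub]
    field_simp
    ring

theorem pre_self {a : ℝ} (ha : 0 < a) (t : ℝ) : pre d a t a t = 1 := by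
  rw [pre, sig, show 4 * a ^ 2 * a ^ 2 / ((a ^ 2 + a ^ 2) ^ 2 + 4 * (t - t) ^ 2) = 1 by
    field_simp; ring, Real.one_rpow]

theorem norm_gam {a : ℝ} (ha : 0 < a) (t : ℝ) (β : Ph d) : ‖gam a t β‖ = 1 := by
  have h := norm_inner_gam ha ha t t β β
  rw [pre_self ha, inner_self_eq_norm_sq_to_K] at h
  simp [Qf, pos] at h
  rcases h with h | h
  · exact h
  · linarith [norm_nonneg (gam a t β)]

theorem continuous_gam {a : ℝ} (ha : 0 < a) :
    Continuous fun q : ℝ × Ph d => gam a q.1 q.2 := by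
  refine continuous_iff_continuousAt.2 fun q₀ => ?_
  have h1 : Continuous fun q : ℝ × Ph d => inner ℂ (gam a q.1 q.2) (gam a q₀.1 q₀.2) := by
    have hS : ∀ q : ℝ × Ph d, ((a : ℂ) ^ 2 - 2 * q.1 * Complex.I) +
        ((a : ℂ) ^ 2 + 2 * q₀.1 * Complex.I) ≠ 0 := fun q h => by
      have := re_sig_pos ha ha q.1 q₀.1
      rw [h] at this; simp at this
    simp only [inner_gam ha ha]
    refine (continuous_const.mul (Continuous.cpow (continuous_const.div (by fun_prop) hS)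
      continuous_const fun q => Or.inl ?_)).mul
      (Complex.continuous_exp.comp ((Continuous.div (by fun_prop) (by fun_prop) hS).add
        (by fun_prop)))
    rw [Pi.div_apply, one_div, Complex.inv_re]
    exact div_pos (re_sig_pos ha ha _ _) (Complex.normSq_pos.2 (hS q))
  have h2 : ∀ q : ℝ × Ph d, ‖gam a q.1 q.2 - gam a q₀.1 q₀.2‖ =
      √(2 - 2 * (inner ℂ (gam a q.1 q.2) (gam a q₀.1 q₀.2)).re) := fun q => by
    rw [← Real.sqrt_sq (norm_nonneg _), @norm_sub_sq ℂ, norm_gam ha, norm_gam ha]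
    congr 1
    simp only [RCLike.re_to_complex]; ring
  rw [ContinuousAt, tendsto_iff_norm_sub_tendsto_zero]
  have h3 : Continuous fun q : ℝ × Ph d => ‖gam a q.1 q.2 - gam a q₀.1 q₀.2‖ := by
    simp only [h2]; fun_prop
  simpa using h3.tendsto q₀

theorem pre_pos {a a' : ℝ} (ha : 0 < a) (ha' : 0 < a') (t t' : ℝ) : 0 < pre d a t a' t' := by
  have := sig_pos (a' := a') ha t t'
  unfold pre; positivity

theorem pre_le_one {a a' : ℝ} (ha : 0 < a) (ha' : 0 < a') (t t' : ℝ) : pre d a t a' t' ≤ 1 := by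
  have hs := sig_pos (a' := a') ha t t'
  refine Real.rpow_le_one (by positivity) ((div_le_one hs).2 ?_) (by positivity)
  unfold sig
  nlinarith [sq_nonneg (a ^ 2 - a' ^ 2), sq_nonneg (t - t')]

theorem Qf_nonneg (a t a' t' : ℝ) (Δ : Ph d) : 0 ≤ Qf a t a' t' Δ := by
  unfold Qf sig; positivity

theorem Qf_ge {a a' t t' : ℝ} (ha : 0 < a) (haa : a ≤ a') (ht : |t - t'| ≤ a' ^ 2) (Δ : Ph d) :
    ‖pos t Δ‖ ^ 2 / (8 * a' ^ 2) + a ^ 2 * ‖Δ.2‖ ^ 2 / 8 ≤ Qf a t a' t' Δ := by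
  have ha' : 0 < a' := ha.trans_le haa
  have hs := sig_pos (a' := a') ha t t'
  have h1 : a ^ 2 ≤ a' ^ 2 := by gcongr
  have h2 : (t - t') ^ 2 ≤ (a' ^ 2) ^ 2 := by rw [← sq_abs]; gcongr
  have h3 : sig a t a' t' ≤ 8 * a' ^ 4 := by
    unfold sig
    have : (a ^ 2 + a' ^ 2) ^ 2 ≤ (2 * a' ^ 2) ^ 2 := by gcongr; linarith
    nlinarith
  calc _ = (a' ^ 2 * ‖pos t Δ‖ ^ 2 + a ^ 2 * a' ^ 2 * a' ^ 2 * ‖Δ.2‖ ^ 2) / (8 * a' ^ 4) := by
        field_simp
    _ ≤ _ := by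
        unfold Qf
        gcongr
        · exact le_add_of_nonneg_right (by positivity)
        · exact le_add_of_nonneg_left (by positivity)

/-- `ext` is an inner product with `pt` -/
theorem exists_ext_eq (h : V d → ℂ) (hh : MemLp h 2 volume) (hs : ∀ ξ, 1 < ‖ξ‖ → h ξ = 0) :
    ∃ H : L2 d, (∀ᵐ ξ, H ξ = (((2 : ℝ) ^ (-(d : ℝ) / 4) * Real.exp (Real.pi * ‖ξ‖ ^ 2) : ℝ) : ℂ) * h ξ) ∧
      ‖H‖ ^ 2 ≤ Real.exp (2 * Real.pi) * ∫ ξ, ‖h ξ‖ ^ 2 ∧
      ∀ z, Red.ext h z = inner ℂ (pt z) H := by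
  set F : V d → ℂ := fun ξ =>
    (((2 : ℝ) ^ (-(d : ℝ) / 4) * Real.exp (Real.pi * ‖ξ‖ ^ 2) : ℝ) : ℂ) * h ξ with hF
  have hb : ∀ ξ, ‖F ξ‖ ≤ Real.exp Real.pi * ‖h ξ‖ := fun ξ => by
    rcases lt_or_ge 1 ‖ξ‖ with h1 | h1
    · simp [hF, hs ξ h1]
    rw [hF, norm_mul, Complex.norm_real, Real.norm_of_nonneg (by positivity)]
    refine mul_le_mul_of_nonneg_right ?_ (norm_nonneg _)
    refine (mul_le_of_le_one_left (by positivity) (Real.rpow_le_one_of_one_le_of_nonpos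
      one_le_two (by have := Nat.cast_nonneg (α := ℝ) d; linarith))).trans ?_
    refine Real.exp_le_exp.2 (mul_le_of_le_one_right Real.pi_pos.le ?_)
    exact pow_le_one₀ (norm_nonneg _) h1
  have hm : AEStronglyMeasurable F volume :=
    (Continuous.aestronglyMeasurable (by fun_prop)).mul hh.1
  have hF2 : MemLp F 2 volume := hh.of_le_mul hm (.of_forall hb)
  refine ⟨hF2.toLp F, hF2.coeFn_toLp, ?_, fun z => ?_⟩
  · have h1 : ‖hF2.toLp F‖ ^ 2 = ∫ ξ, ‖F ξ‖ ^ 2 := by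
      rw [← inner_self_eq_norm_sq (𝕜 := ℂ), L2.inner_def, ← integral_re (L2.integrable_inner _ _)]
      exact integral_congr_ae (hF2.coeFn_toLp.mono fun ξ hξ => by
        simp only [hξ, inner_self_eq_norm_sq])
    rw [h1, ← integral_const_mul]
    refine integral_mono ((memLp_two_iff_integrable_sq_norm hm).1 hF2)
      (((memLp_two_iff_integrable_sq_norm hh.1).1 hh).const_mul _) fun ξ => ?_
    refine (pow_le_pow_left₀ (norm_nonneg _) (hb ξ) 2).trans (le_of_eq ?_)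
    rw [mul_pow, ← Real.exp_nat_mul]; norm_num
  · rw [pt, ← co, co_eq one_pos, Red.ext]
    refine integral_congr_ae (hF2.coeFn_toLp.mono fun ξ hξ => ?_)
    simp only
    rw [hξ, conj_gamF, hF]
    simp only
    rw [Complex.ofReal_mul, Complex.ofReal_exp, ← mul_assoc, mul_mul_mul_comm, ← Complex.ofReal_mul,
      ← Complex.exp_add, one_pow, mul_one, ← Real.rpow_add two_pos,
      show (d : ℝ) / 4 + -(d : ℝ) / 4 = 0 by ring, Real.rpow_zero, Complex.ofReal_one, one_mul,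
      mul_comm, Red.ph, sub_zero]
    congr 2
    push_cast; ring

/-- LB: exact complex shift. -/
theorem shift_identity {a : ℝ} (ha : 0 < a) (t t₀ : ℝ) (v : V d) :
    ∃ u : Ph d → ℂ, Continuous u ∧ (∀ β, ‖u β‖ = 1) ∧
      ∀ a' : ℝ, 0 < a' → ∀ (t' : ℝ) (β' : Ph d), ∃ c : ℂ,
        ‖c‖ ≤ Real.exp (‖v‖ ^ 2 * (a ^ 2 + a' ^ 2 + (t - t₀) ^ 2 / a ^ 2 + (t' - t₀) ^ 2 / a' ^ 2)) ∧
        ∀ β : Ph d,
          (Real.exp ⟪v, pos t₀ (β - β')⟫ : ℂ) * inner ℂ (gam a t β) (gam a' t' β') =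
            u β * c * inner ℂ
              (gam a t (β + ((2 * t * ((t₀ - t) / (Real.pi * a ^ 2))) • v,
                ((t₀ - t) / (Real.pi * a ^ 2)) • v)))
              (gam a' t' (β' + ((2 * t' * ((t' - t₀) / (Real.pi * a' ^ 2))
                  + (a ^ 2 + a' ^ 2) / (2 * Real.pi)) • v,
                ((t' - t₀) / (Real.pi * a' ^ 2)) • v))) := by
  have hπ := Real.pi_pos
  obtain ⟨q, hq⟩ : ∃ q : ℝ, q = (t₀ - t) / (Real.pi * a ^ 2) := ⟨_, rfl⟩
  rw [← hq]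
  have e0 : t₀ = t + Real.pi * a ^ 2 * q := by rw [hq]; field_simp; ring
  refine ⟨fun β => Complex.exp (((-(4 * Real.pi * t * q - a ^ 2) * ⟪v, β.2⟫ : ℝ) : ℂ) * Complex.I),
    by fun_prop, fun β => Complex.norm_exp_ofReal_mul_I _, fun a' ha' t' β' => ?_⟩
  obtain ⟨q', hq'⟩ : ∃ q' : ℝ, q' = (t' - t₀) / (Real.pi * a' ^ 2) := ⟨_, rfl⟩
  obtain ⟨σ, hσ⟩ : ∃ σ : ℝ, σ = (a ^ 2 + a' ^ 2) / (2 * Real.pi) := ⟨_, rfl⟩
  obtain ⟨ϖ, hϖ⟩ : ∃ ϖ : ℝ, ϖ = 1 / (2 * Real.pi) := ⟨_, rfl⟩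
  rw [← hq', ← hσ]
  have e1 : t' = t₀ + Real.pi * a' ^ 2 * q' := by rw [hq']; field_simp; ring
  have e2 : σ = (a ^ 2 + a' ^ 2) * ϖ := by rw [hσ, hϖ]; ring
  have e3 : 2 * Real.pi * ϖ = 1 := by rw [hϖ]; field_simp
  have hS := re_sig_pos ha ha' t t'
  obtain ⟨l, hl⟩ : ∃ l : ℝ, l = 2 * t * q - (2 * t' * q' + σ) := ⟨_, rfl⟩
  refine ⟨Complex.exp ((((4 * Real.pi * t * q - a ^ 2 - 2 * Real.pi * l) * ⟪v, β'.2⟫ : ℝ) : ℂ) *
    Complex.I + ((‖v‖ ^ 2 : ℝ) : ℂ) * (Real.pi * (((a : ℂ) ^ 2 - 2 * t * Complex.I) * (q - q') ^ 2 +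
      (Complex.I * q' - ϖ) ^ 2 * (((a : ℂ) ^ 2 - 2 * t * Complex.I) +
        ((a' : ℂ) ^ 2 + 2 * t' * Complex.I))) - 2 * Real.pi * Complex.I * l * q')), ?_, fun β => ?_⟩
  · rw [Complex.norm_exp]
    refine Real.exp_le_exp.2 ?_
    have h1 : (t - t₀) ^ 2 / a ^ 2 = Real.pi ^ 2 * a ^ 2 * q ^ 2 := by rw [e0]; field_simp; ring
    have h2 : (t' - t₀) ^ 2 / a' ^ 2 = Real.pi ^ 2 * a' ^ 2 * q' ^ 2 := by rw [e1]; field_simp; ring
    have h3 : t' - t = Real.pi * (a ^ 2 * q + a' ^ 2 * q') := by rw [e1, e0]; ring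
    rw [h1, h2, Complex.add_re, Complex.re_ofReal_mul, Complex.re_ofReal_mul, Complex.I_re,
      mul_zero, zero_add]
    refine mul_le_mul_of_nonneg_left ?_ (by positivity)
    have h4 : (Real.pi * (((a : ℂ) ^ 2 - 2 * t * Complex.I) * (q - q') ^ 2 +
        (Complex.I * q' - ϖ) ^ 2 * (((a : ℂ) ^ 2 - 2 * t * Complex.I) +
          ((a' : ℂ) ^ 2 + 2 * t' * Complex.I))) - 2 * Real.pi * Complex.I * l * q').re =
        Real.pi * (a ^ 2 * q ^ 2) + Real.pi * (a' ^ 2 * q' ^ 2) + (a ^ 2 + a' ^ 2) * (ϖ / 2) := by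
      simp only [sq, Complex.sub_re, Complex.mul_re, Complex.add_re, Complex.ofReal_re,
        Complex.ofReal_im, Complex.I_re, Complex.I_im, Complex.mul_im, Complex.re_ofNat,
        Complex.im_ofNat, Complex.add_im, Complex.sub_im]
      linear_combination (4 * Real.pi * ϖ * q') * h3 +
        (2 * Real.pi * q' * (a ^ 2 * q + a' ^ 2 * q') + (a ^ 2 + a' ^ 2) * ϖ / 2) * e3
    rw [h4]
    have h5 : Real.pi ≤ Real.pi ^ 2 := by nlinarith [Real.pi_gt_three]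
    have h6 : ϖ / 2 ≤ 1 := by
      rw [hϖ, div_div, div_le_one (by positivity)]; nlinarith [Real.pi_gt_three]
    nlinarith [mul_le_mul_of_nonneg_right h5 (by positivity : 0 ≤ a ^ 2 * q ^ 2),
      mul_le_mul_of_nonneg_right h5 (by positivity : 0 ≤ a' ^ 2 * q' ^ 2),
      mul_le_mul_of_nonneg_left h6 (by positivity : 0 ≤ a ^ 2 + a' ^ 2)]
  · rw [inner_gam ha ha', inner_gam ha ha']
    have f1 : (β + ((2 * t * q) • v, q • v)).2 - (β' + ((2 * t' * q' + σ) • v, q' • v)).2 =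
        (β.2 - β'.2) + (q - q') • v := by simp only [Prod.snd_add, sub_smul]; abel
    have f2 : (β + ((2 * t * q) • v, q • v)).1 - (β' + ((2 * t' * q' + σ) • v, q' • v)).1 =
        (β.1 - β'.1) + l • v := by simp only [Prod.fst_add, hl, sub_smul]; abel
    have f3 : ⟪v, β.2⟫ = ⟪v, β.2 - β'.2⟫ + ⟪v, β'.2⟫ := by rw [← inner_add_right, sub_add_cancel]
    beta_reduce
    rw [f1, f2, Prod.snd_add, pos, Prod.fst_sub, Prod.snd_sub, f3]
    generalize β.2 - β'.2 = δ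
    generalize β.1 - β'.1 = y
    simp only [norm_add_sq_real, inner_add_left, inner_add_right, inner_sub_right, inner_smul_left,
      inner_smul_right, norm_smul, mul_pow, Real.norm_eq_abs, sq_abs, conj_trivial,
      real_inner_self_eq_norm_sq, real_inner_comm v]
    rw [Complex.ofReal_exp, mul_left_comm, ← Complex.exp_add, ← Complex.exp_add, mul_left_comm,
      ← Complex.exp_add]
    congr 2
    set A : ℂ := (a : ℂ) ^ 2 - 2 * t * Complex.I with hA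
    set A' : ℂ := (a' : ℂ) ^ 2 + 2 * t' * Complex.I with hA'
    have hS0 : A + A' ≠ 0 := fun h => by rw [h] at hS; simp at hS
    have c0 : (t₀ : ℂ) = t + Real.pi * a ^ 2 * q := by exact_mod_cast e0
    have c1 : (t' : ℂ) = t₀ + Real.pi * a' ^ 2 * q' := by exact_mod_cast e1
    have c3 : 2 * (Real.pi : ℂ) * ϖ = 1 := by exact_mod_cast e3
    have c4 : (l : ℂ) = Complex.I * A * (q - q') + (Complex.I * q' - ϖ) * (A + A') := by
      rw [hl, e2, hA, hA']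
      push_cast
      linear_combination (2 * t * q - 2 * t' * q') * Complex.I_sq +
        2 * ϖ * Complex.I * (c0 + c1) + Complex.I * (a ^ 2 * q + a' ^ 2 * q') * c3
    have c5 : ∀ D X Y x₁ x₂ n : ℂ, Real.pi * (-(A * A') * (D + 2 * ((q - q') * x₂) + (q - q') ^ 2 * n)
        + 2 * Complex.I * A * (X + (q - q') * x₁ + l * (x₂ + (q - q') * n))
        - (Y + 2 * (l * x₁) + l ^ 2 * n)) / (A + A') =
        Real.pi * (-(A * A') * D + 2 * Complex.I * A * X - Y) / (A + A') +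
        Real.pi * (x₂ * (-2 * A * (q - q') + 2 * Complex.I * A * (Complex.I * q' - ϖ)) -
          2 * (Complex.I * q' - ϖ) * x₁ -
          n * (A * (q - q') ^ 2 + (Complex.I * q' - ϖ) ^ 2 * (A + A'))) := by
      intro D X Y x₁ x₂ n
      rw [c4]
      field_simp
      linear_combination (A ^ 2 * (q - q') * (2 * x₂ + (q - q') * n)) * Complex.I_sq
    push_cast
    rw [c5]
    linear_combination (-(⟪v, y⟫ : ℝ) + (⟪v, δ⟫ : ℝ) * Complex.I * A) * c3 -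
      2 * (⟪v, δ⟫ : ℝ) * c0 + (⟪v, δ⟫ : ℝ) * (-2 * Real.pi * A * q' - 2 * t) * Complex.I_sq +
      (⟪v, δ⟫ : ℝ) * (2 * Real.pi * q + Complex.I) * hA

end Crest.Agent.N76.G
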