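import Crest.Agent.N76.G.Defs

/-! # Row 76 (S0101): finite Bessel / Schur / Gram inequalities in a Hilbert space (helper28). -/

set_option autoImplicit false

open scoped ComplexConjugate

namespace Crest.Agent.N76.G

private lemma le_of_sq_le_mul {S B : ℝ} (hB : 0 ≤ B) (h : S ^ 2 ≤ B * S) : S ≤ B := by
  by_contra hc
  push Not at hc
  nlinarith

private lemma inner_sum_smul_left {E : Type*} [NormedAddCommGroup E] [InnerProductSpace ℂ E]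
    {κ : Type*} (s : Finset κ) (ψ : κ → E) (u : κ → ℂ) (H : E) :
    inner ℂ (∑ k ∈ s, u k • ψ k) H = ∑ k ∈ s, conj (u k) * inner ℂ (ψ k) H := by
  rw [sum_inner]
  exact Finset.sum_congr rfl fun k _ => inner_smul_left _ _ _

private lemma inner_sum_smul_right {E : Type*} [NormedAddCommGroup E] [InnerProductSpace ℂ E]
    {κ : Type*} (s : Finset κ) (ψ : κ → E) (u : κ → ℂ) (H : E) :
    inner ℂ H (∑ k ∈ s, u k • ψ k) = ∑ k ∈ s, u k * inner ℂ H (ψ k) := by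
  rw [inner_sum]
  exact Finset.sum_congr rfl fun k _ => inner_smul_right _ _ _

private lemma norm_sq_le_norm_inner {E : Type*} [NormedAddCommGroup E] [InnerProductSpace ℂ E]
    (v : E) : ‖v‖ ^ 2 = ‖inner ℂ v v‖ := by
  rw [inner_self_eq_norm_sq_to_K]
  simp

theorem bessel_schur {E : Type*} [NormedAddCommGroup E] [InnerProductSpace ℂ E] {κ : Type*}
    (s : Finset κ) (ψ : κ → E) (w : κ → ℝ) (hw : ∀ k ∈ s, 0 ≤ w k) {D : ℝ} (hD0 : 0 ≤ D)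
    (hD : ∀ k ∈ s, ∑ k' ∈ s, w k' * ‖inner ℂ (ψ k) (ψ k')‖ ≤ D) (H : E) :
    ∑ k ∈ s, w k * ‖inner ℂ (ψ k) H‖ ^ 2 ≤ D * ‖H‖ ^ 2 := by
  set a : κ → ℝ := fun k => ‖inner ℂ (ψ k) H‖ with ha
  set G : κ → κ → ℝ := fun k k' => ‖inner ℂ (ψ k) (ψ k')‖ with hG
  have hGs : ∀ k k', G k k' = G k' k := fun k k' => norm_inner_symm _ _
  set S : ℝ := ∑ k ∈ s, w k * a k ^ 2 with hS
  have hS0 : 0 ≤ S := Finset.sum_nonneg fun k hk => mul_nonneg (hw k hk) (sq_nonneg _)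
  set u : κ → ℂ := fun k => (w k : ℂ) * inner ℂ (ψ k) H with hu
  have hun : ∀ k ∈ s, ‖u k‖ = w k * a k := fun k hk => by
    simp only [hu, ha, norm_mul, Complex.norm_real, Real.norm_eq_abs, abs_of_nonneg (hw k hk)]
  set v : E := ∑ k ∈ s, u k • ψ k with hv
  have h1 : inner ℂ v H = (S : ℂ) := by
    rw [hv, inner_sum_smul_left, hS]
    push_cast
    refine Finset.sum_congr rfl fun k _ => ?_
    simp only [hu, ha, map_mul, Complex.conj_ofReal, mul_assoc]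
    rw [Complex.conj_mul']
  have h2 : S ≤ ‖v‖ * ‖H‖ := by
    have := norm_inner_le_norm (𝕜 := ℂ) v H
    rwa [h1, Complex.norm_real, Real.norm_eq_abs, abs_of_nonneg hS0] at this
  have h3 : ‖v‖ ^ 2 ≤ ∑ k ∈ s, ∑ k' ∈ s, (w k * a k) * ((w k' * a k') * G k k') := by
    rw [norm_sq_le_norm_inner]
    conv_lhs => rw [hv, inner_sum_smul_left]
    refine (norm_sum_le _ _).trans (Finset.sum_le_sum fun k hk => ?_)
    rw [norm_mul, Complex.norm_conj, hun k hk, ← Finset.mul_sum]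
    refine mul_le_mul_of_nonneg_left ?_ (mul_nonneg (hw k hk) (norm_nonneg _))
    rw [inner_sum_smul_right]
    refine (norm_sum_le _ _).trans (Finset.sum_le_sum fun k' hk' => ?_)
    rw [norm_mul, hun k' hk']
  have h4 : ∑ k ∈ s, ∑ k' ∈ s, (w k * a k ^ 2) * (w k' * G k k') ≤ D * S := by
    rw [hS, Finset.mul_sum]
    refine Finset.sum_le_sum fun k hk => ?_
    rw [← Finset.mul_sum, mul_comm D]
    exact mul_le_mul_of_nonneg_left (hD k hk) (mul_nonneg (hw k hk) (sq_nonneg _))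
  have h5 : ∑ k ∈ s, ∑ k' ∈ s, (w k' * a k' ^ 2) * (w k * G k k') ≤ D * S := by
    rw [Finset.sum_comm]
    simpa only [hGs] using h4
  have h6 : ‖v‖ ^ 2 ≤ D * S := by
    have : ∑ k ∈ s, ∑ k' ∈ s, (w k * a k) * ((w k' * a k') * G k k') ≤
        ∑ k ∈ s, ∑ k' ∈ s, ((w k * a k ^ 2) * (w k' * G k k') +
          (w k' * a k' ^ 2) * (w k * G k k')) / 2 := by
      refine Finset.sum_le_sum fun k hk => Finset.sum_le_sum fun k' hk' => ?_
      have h0 : 0 ≤ w k * w k' * G k k' :=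
        mul_nonneg (mul_nonneg (hw k hk) (hw k' hk')) (norm_nonneg _)
      nlinarith [mul_nonneg h0 (sq_nonneg (a k - a k'))]
    simp only [← Finset.sum_div, Finset.sum_add_distrib] at this
    linarith
  refine le_of_sq_le_mul (by positivity) ?_
  calc S ^ 2 ≤ (‖v‖ * ‖H‖) ^ 2 := pow_le_pow_left₀ hS0 h2 2
    _ = ‖v‖ ^ 2 * ‖H‖ ^ 2 := by ring
    _ ≤ D * S * ‖H‖ ^ 2 := mul_le_mul_of_nonneg_right h6 (sq_nonneg _)
    _ = D * ‖H‖ ^ 2 * S := by ring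

theorem bessel_iff_gram {E : Type*} [NormedAddCommGroup E] [InnerProductSpace ℂ E] {κ : Type*}
    (s : Finset κ) (ψ : κ → E) {D : ℝ} (hD0 : 0 ≤ D) :
    (∀ H : E, ∑ k ∈ s, ‖inner ℂ (ψ k) H‖ ^ 2 ≤ D * ‖H‖ ^ 2) ↔
    (∀ u : κ → ℂ, ‖∑ k ∈ s, u k • ψ k‖ ^ 2 ≤ D * ∑ k ∈ s, ‖u k‖ ^ 2) := by
  constructor
  · intro h u
    set v : E := ∑ k ∈ s, u k • ψ k with hv
    have hU : 0 ≤ ∑ k ∈ s, ‖u k‖ ^ 2 := Finset.sum_nonneg fun k _ => sq_nonneg _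
    have h1 : ‖v‖ ^ 2 ≤ ∑ k ∈ s, ‖u k‖ * ‖inner ℂ (ψ k) v‖ := by
      rw [norm_sq_le_norm_inner]
      conv_lhs => rw [hv, inner_sum_smul_left, ← hv]
      refine (norm_sum_le _ _).trans (Finset.sum_le_sum fun k _ => ?_)
      rw [norm_mul, Complex.norm_conj]
    refine le_of_sq_le_mul (by positivity) ?_
    calc (‖v‖ ^ 2) ^ 2 ≤ (∑ k ∈ s, ‖u k‖ * ‖inner ℂ (ψ k) v‖) ^ 2 :=
          pow_le_pow_left₀ (sq_nonneg _) h1 2
      _ ≤ (∑ k ∈ s, ‖u k‖ ^ 2) * ∑ k ∈ s, ‖inner ℂ (ψ k) v‖ ^ 2 :=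
          Finset.sum_mul_sq_le_sq_mul_sq _ _ _
      _ ≤ (∑ k ∈ s, ‖u k‖ ^ 2) * (D * ‖v‖ ^ 2) := mul_le_mul_of_nonneg_left (h v) hU
      _ = _ := by ring
  · intro h H
    set S : ℝ := ∑ k ∈ s, ‖inner ℂ (ψ k) H‖ ^ 2 with hS
    have hS0 : 0 ≤ S := Finset.sum_nonneg fun k _ => sq_nonneg _
    set v : E := ∑ k ∈ s, (inner ℂ (ψ k) H : ℂ) • ψ k with hv
    have h1 : inner ℂ v H = (S : ℂ) := by
      rw [hv, inner_sum_smul_left, hS]
      push_cast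
      exact Finset.sum_congr rfl fun k _ => by rw [Complex.conj_mul']
    have h2 : S ≤ ‖v‖ * ‖H‖ := by
      have := norm_inner_le_norm (𝕜 := ℂ) v H
      rwa [h1, Complex.norm_real, Real.norm_eq_abs, abs_of_nonneg hS0] at this
    have h3 : ‖v‖ ^ 2 ≤ D * S := h _
    refine le_of_sq_le_mul (by positivity) ?_
    calc S ^ 2 ≤ (‖v‖ * ‖H‖) ^ 2 := pow_le_pow_left₀ hS0 h2 2
      _ = ‖v‖ ^ 2 * ‖H‖ ^ 2 := by ring
      _ ≤ D * S * ‖H‖ ^ 2 := mul_le_mul_of_nonneg_right h3 (sq_nonneg _)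
      _ = D * ‖H‖ ^ 2 * S := by ring

end Crest.Agent.N76.G
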