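import Crest.Agent.N76.G.Defs

/-! # Row 76 (S0101): Cauchy-Schwarz, Young and averaging for lower integrals (helper28). -/

set_option autoImplicit false

open MeasureTheory Set
open scoped ENNReal

namespace Crest.Agent.N76.G

section CS

variable {α : Type*} [MeasurableSpace α] {μ : Measure α}

theorem lintegral_mul_sq_le {f g : α → ℝ≥0∞} (hf : AEMeasurable f μ) (hg : AEMeasurable g μ) :
    (∫⁻ x, f x * g x ∂μ) ^ 2 ≤ (∫⁻ x, f x ^ 2 ∂μ) * ∫⁻ x, g x ^ 2 ∂μ := by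
  have h := ENNReal.lintegral_mul_le_Lp_mul_Lq μ Real.HolderConjugate.two_two hf hg
  simp only [Pi.mul_apply, ENNReal.rpow_two] at h
  refine (pow_le_pow_left₀ zero_le h 2).trans_eq ?_
  rw [mul_pow, ← ENNReal.rpow_two, ← ENNReal.rpow_two, ← ENNReal.rpow_mul, ← ENNReal.rpow_mul]
  norm_num

theorem lintegral_weight_sq_le {k h : α → ℝ≥0∞} (hk : AEMeasurable k μ) (hh : AEMeasurable h μ) :
    (∫⁻ x, k x * h x ∂μ) ^ 2 ≤ (∫⁻ x, k x ∂μ) * ∫⁻ x, k x * h x ^ 2 ∂μ := by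
  have hs : ∀ x : ℝ≥0∞, (x ^ (1 / 2 : ℝ)) ^ 2 = x := fun x => by
    rw [← ENNReal.rpow_two, ← ENNReal.rpow_mul]; norm_num
  have h := lintegral_mul_sq_le (hk.pow_const (1 / 2 : ℝ)) ((hk.pow_const (1 / 2 : ℝ)).mul hh)
  simp only [Pi.mul_apply, mul_pow, hs, ← mul_assoc, ← sq] at h
  exact h

theorem lintegral_enorm_sq_eq {f : α → ℂ} (hf : MemLp f 2 μ) :
    ∫⁻ x, ‖f x‖ₑ ^ 2 ∂μ = ENNReal.ofReal (∫ x, ‖f x‖ ^ 2 ∂μ) := by
  rw [ofReal_integral_eq_lintegral_ofReal (hf.integrable_norm_pow two_ne_zero)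
    (.of_forall fun _ => by positivity)]
  simp only [← ofReal_norm, ENNReal.ofReal_pow (norm_nonneg _)]

theorem lintegral_weight_enorm_sq_eq {f : α → ℂ} (hf : MemLp f 2 μ) {W : α → ℝ}
    (hW : Measurable W) {Wm : ℝ} (h0 : ∀ x, 0 ≤ W x) (hm : ∀ x, W x ≤ Wm) :
    ∫⁻ x, ENNReal.ofReal (W x) * ‖f x‖ₑ ^ 2 ∂μ = ENNReal.ofReal (∫ x, W x * ‖f x‖ ^ 2 ∂μ) := by
  have hi : Integrable (fun x => W x * ‖f x‖ ^ 2) μ :=
    (hf.integrable_norm_pow two_ne_zero).bdd_mul (c := Wm) hW.aestronglyMeasurable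
      (.of_forall fun x => by rw [Real.norm_eq_abs, abs_of_nonneg (h0 x)]; exact hm x)
  rw [ofReal_integral_eq_lintegral_ofReal hi
    (.of_forall fun x => mul_nonneg (h0 x) (by positivity))]
  simp only [← ofReal_norm, ENNReal.ofReal_mul (h0 _), ENNReal.ofReal_pow (norm_nonneg _)]

end CS

section Conv

variable {E : Type*} [AddCommGroup E] [MeasurableSpace E] [MeasurableAdd₂ E] [MeasurableNeg E]
  {μ : Measure E} [SFinite μ] [μ.IsAddLeftInvariant] [μ.IsNegInvariant]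

omit [SFinite μ] [μ.IsAddLeftInvariant] [μ.IsNegInvariant] in
theorem aemeasurable_conv_ker {k h : E → ℝ≥0∞} (hk : Measurable k) (hh : AEMeasurable h μ) :
    AEMeasurable (fun z : E × E => k (z.1 - z.2) * h z.2) (μ.prod μ) :=
  (hk.comp (measurable_fst.sub measurable_snd)).aemeasurable.mul hh.comp_snd

omit [μ.IsAddLeftInvariant] [μ.IsNegInvariant] in
theorem aemeasurable_conv {k h : E → ℝ≥0∞} (hk : Measurable k) (hh : AEMeasurable h μ) :
    AEMeasurable (fun x => ∫⁻ y, k (x - y) * h y ∂μ) μ :=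
  (aemeasurable_conv_ker hk hh).lintegral_prod_right'

omit [μ.IsNegInvariant] in
theorem lintegral_conv {k h : E → ℝ≥0∞} (hk : Measurable k) (hh : AEMeasurable h μ) :
    ∫⁻ x, ∫⁻ y, k (x - y) * h y ∂μ ∂μ = (∫⁻ x, k x ∂μ) * ∫⁻ y, h y ∂μ := by
  rw [lintegral_lintegral_swap (aemeasurable_conv_ker hk hh), ← lintegral_const_mul'' _ hh]
  refine lintegral_congr fun y => ?_
  rw [lintegral_mul_const (f := fun x => k (x - y)) _ (hk.comp (measurable_id.sub_const y)),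
    lintegral_sub_right_eq_self]

/-- Young's inequality `L¹ * L² → L²` -/
theorem lintegral_conv_sq_le {k h : E → ℝ≥0∞} (hk : Measurable k) (hh : AEMeasurable h μ) :
    ∫⁻ x, (∫⁻ y, k (x - y) * h y ∂μ) ^ 2 ∂μ ≤ (∫⁻ x, k x ∂μ) ^ 2 * ∫⁻ y, h y ^ 2 ∂μ := by
  calc ∫⁻ x, (∫⁻ y, k (x - y) * h y ∂μ) ^ 2 ∂μ
      ≤ ∫⁻ x, (∫⁻ x, k x ∂μ) * ∫⁻ y, k (x - y) * h y ^ 2 ∂μ ∂μ := by
        refine lintegral_mono fun x => ?_
        have := lintegral_weight_sq_le (k := fun y => k (x - y))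
          (hk.comp (measurable_const.sub measurable_id)).aemeasurable hh
        rwa [lintegral_sub_left_eq_self] at this
    _ = _ := by
        rw [lintegral_const_mul'' _ (aemeasurable_conv hk (hh.pow_const 2)),
          lintegral_conv hk (hh.pow_const 2), ← mul_assoc, ← sq]

end Conv

end Crest.Agent.N76.G
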