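import Crest.Agent.N76.G.Gam
import Crest.Agent.N76.G.Iso
import Crest.Agent.N76.G.Avg

/-! # Row 76 (S0101): Gaussian tails of the overlap kernel, far lines, transfer of weights
(helper28). -/

set_option autoImplicit false

open MeasureTheory Set Metric
open scoped ENNReal RealInnerProductSpace ComplexConjugate Pointwise

namespace Crest.Agent.N76.G

open Crest.Agent.N76.Red (V)

variable {d : ℕ}

instance isAddHaarMeasure_volume_Ph : (volume : Measure (Ph d)).IsAddHaarMeasure :=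
  Measure.prod.instIsAddHaarMeasure _ _

instance isNegInvariant_volume_Ph : (volume : Measure (Ph d)).IsNegInvariant :=
  Measure.IsAddHaarMeasure.isNegInvariant_of_regular _

theorem pos_smul (t r : ℝ) (Δ : Ph d) : pos t (r • Δ) = r • pos t Δ := by
  simp only [pos, Prod.smul_fst, Prod.smul_snd, smul_sub, smul_comm r]

theorem pos_sub (t : ℝ) (Δ Δ' : Ph d) : pos t (Δ - Δ') = pos t Δ - pos t Δ' := by
  simp only [pos, Prod.fst_sub, Prod.snd_sub, smul_sub]; abel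

theorem continuous_pos (t : ℝ) : Continuous (pos t : Ph d → V d) := by
  unfold pos; fun_prop

theorem Qf_smul (a t a' t' r : ℝ) (Δ : Ph d) :
    Qf a t a' t' (r • Δ) = r ^ 2 * Qf a t a' t' Δ := by
  simp only [Qf, pos_smul, Prod.smul_snd, norm_smul, mul_pow, Real.norm_eq_abs, sq_abs]
  ring

theorem continuous_Qf (a t a' t' : ℝ) : Continuous (Qf a t a' t' : Ph d → ℝ) := by
  have := continuous_pos (d := d)
  unfold Qf; fun_prop

theorem finrank_Ph : Module.finrank ℝ (Ph d) = d + d := by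
  simp [Module.finrank_prod]

theorem integral_exp_Qf {a a' : ℝ} (ha : 0 < a) (ha' : 0 < a') (t t' : ℝ) {s : ℝ} (hs : 0 < s) :
    Integrable (fun Δ : Ph d => Real.exp (-Real.pi * s * Qf a t a' t' Δ)) ∧
    ∫ Δ : Ph d, Real.exp (-Real.pi * s * Qf a t a' t' Δ) = (2 / s) ^ d / pre d a t a' t' ^ 2 := by
  have hp := pre_pos (d := d) ha ha' t t'
  set f : Ph d → ℝ := fun Δ => Real.exp (-Real.pi * 2 * Qf a t a' t' Δ) with hf
  have h1 : ∀ β : Ph d, f β = (pre d a t a' t' ^ 2)⁻¹ * ‖co a t (gam a' t' 0) β‖ ^ 2 := fun β => by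
    rw [co, norm_inner_gam ha ha', sub_zero, mul_pow, ← Real.exp_nat_mul,
      inv_mul_cancel_left₀ (by positivity), hf]
    exact congrArg Real.exp (by push_cast; ring)
  have h2 : Integrable f := by
    rw [funext h1]
    exact ((memLp_co ha t _).integrable_norm_pow two_ne_zero).const_mul _
  have h3 : ∫ β, f β = (pre d a t a' t' ^ 2)⁻¹ := by
    rw [funext h1, integral_const_mul, integral_co_sq ha, norm_gam ha', one_pow, mul_one]
  have hr : 0 < Real.sqrt (s / 2) := by positivity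
  have h4 : ∀ Δ : Ph d, Real.exp (-Real.pi * s * Qf a t a' t' Δ) = f (Real.sqrt (s / 2) • Δ) :=
    fun Δ => by
      simp only [hf, Qf_smul, Real.sq_sqrt (by positivity : 0 ≤ s / 2)]
      congr 1; ring
  rw [funext h4]
  refine ⟨h2.comp_smul hr.ne', ?_⟩
  rw [Measure.integral_comp_smul, h3, finrank_Ph, ← two_mul, pow_mul,
    Real.sq_sqrt (by positivity : 0 ≤ s / 2), abs_of_nonneg (by positivity), ← inv_pow, inv_div,
    smul_eq_mul, div_eq_mul_inv ((2 / s) ^ d)]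

theorem lintegral_exp_Qf {a a' : ℝ} (ha : 0 < a) (ha' : 0 < a') (t t' : ℝ) {s : ℝ} (hs : 0 < s)
    {C : ℝ} (hC : 0 ≤ C) :
    ∫⁻ Δ : Ph d, ENNReal.ofReal (C * Real.exp (-Real.pi * s * Qf a t a' t' Δ)) =
      ENNReal.ofReal (C * ((2 / s) ^ d / pre d a t a' t' ^ 2)) := by
  obtain ⟨h1, h2⟩ := integral_exp_Qf (d := d) ha ha' t t' hs
  rw [← ofReal_integral_eq_lintegral_ofReal (h1.const_mul C) (.of_forall fun _ => by positivity),
    integral_const_mul, h2]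

/-- the far part of the overlap kernel -/
noncomputable def farK (a t a' t' s : ℝ) (Δ : Ph d) : ℝ≥0∞ :=
  ENNReal.ofReal (pre d a t a' t' * Real.exp (-Real.pi * s / 2) *
    Real.exp (-Real.pi * (1 / 2) * Qf a t a' t' Δ))

theorem measurable_farK (a t a' t' s : ℝ) : Measurable (farK a t a' t' s : Ph d → ℝ≥0∞) := by
  have := continuous_Qf (d := d) a t a' t'
  refine ENNReal.measurable_ofReal.comp (Continuous.measurable ?_)
  fun_prop

/-- pointwise bound for a synthesis from far lines -/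
theorem enorm_co_syn_le {a a' : ℝ} (ha : 0 < a) (ha' : 0 < a') (t t' : ℝ) {c : Ph d → ℂ}
    (hc : MemLp c 2 volume) (β : Ph d) {s : ℝ}
    (hs : ∀ β', c β' ≠ 0 → s ≤ Qf a t a' t' (β - β')) :
    ‖co a t (syn a' t' c) β‖ₑ ≤ ∫⁻ β', farK a t a' t' s (β - β') * ‖c β'‖ₑ := by
  have hp := pre_pos (d := d) ha ha' t t'
  rw [co, inner_syn ha' t' hc]
  refine (enorm_integral_le_lintegral_enorm _).trans (lintegral_mono fun β' => ?_)
  by_cases h0 : c β' = 0
  · simp [h0]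
  rw [enorm_mul]
  refine mul_le_mul' ?_ le_rfl
  rw [← ofReal_norm, norm_inner_gam ha ha', farK, mul_assoc, ← Real.exp_add]
  refine ENNReal.ofReal_le_ofReal (mul_le_mul_of_nonneg_left (Real.exp_le_exp.2 ?_) hp.le)
  nlinarith [mul_le_mul_of_nonneg_left (hs β' h0) Real.pi_pos.le]

/-- ML: far lines do not interact (pointwise) -/
theorem norm_co_syn_far {a a' : ℝ} (ha : 0 < a) (ha' : 0 < a') (t t' : ℝ) {c : Ph d → ℂ}
    (hc : MemLp c 2 volume) (β : Ph d) {s : ℝ}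
    (hs : ∀ β', c β' ≠ 0 → s ≤ Qf a t a' t' (β - β')) :
    ‖co a t (syn a' t' c) β‖ ^ 2 ≤ 2 ^ d * Real.exp (-Real.pi * s) * ∫ β', ‖c β'‖ ^ 2 := by
  have hp := pre_pos (d := d) ha ha' t t'
  have hk := measurable_farK (d := d) a t a' t' s
  have h1 : ∫⁻ β', farK a t a' t' s (β - β') ^ 2 =
      ENNReal.ofReal (2 ^ d * Real.exp (-Real.pi * s)) := by
    rw [lintegral_sub_left_eq_self (fun Δ => farK a t a' t' s Δ ^ 2)]
    have h2 : ∀ Δ : Ph d, farK a t a' t' s Δ ^ 2 =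
        ENNReal.ofReal (pre d a t a' t' ^ 2 * Real.exp (-Real.pi * s) *
          Real.exp (-Real.pi * 1 * Qf a t a' t' Δ)) := fun Δ => by
      rw [farK, ← ENNReal.ofReal_pow (by positivity), mul_pow, mul_pow, ← Real.exp_nat_mul,
        ← Real.exp_nat_mul]
      exact congrArg ENNReal.ofReal (congrArg₂ _ (congrArg _ (congrArg _ (by push_cast; ring)))
        (congrArg _ (by push_cast; ring)))
    rw [funext h2, lintegral_exp_Qf ha ha' t t' one_pos (by positivity)]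
    congr 1; field_simp
  have h3 := (pow_le_pow_left₀ zero_le (enorm_co_syn_le ha ha' t t' hc β hs) 2).trans
    (lintegral_mul_sq_le (f := fun β' => farK a t a' t' s (β - β'))
      (hk.comp (measurable_const.sub measurable_id)).aemeasurable hc.1.enorm)
  rw [h1, lintegral_enorm_sq_eq hc, ← ENNReal.ofReal_mul (by positivity), ← ofReal_norm,
    ← ENNReal.ofReal_pow (norm_nonneg _)] at h3
  exact (ENNReal.ofReal_le_ofReal_iff
    (mul_nonneg (by positivity) (integral_nonneg fun _ => by positivity))).1 h3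

/-- the box of radii `ρ r₁` (position at time `t₀`) and `ρ r₂` (frequency) -/
def box (t₀ r₁ r₂ : ℝ) : Set (Ph d) := {Δ | ‖pos t₀ Δ‖ < r₁ ∧ ‖Δ.2‖ < r₂}

theorem isOpen_box (t₀ r₁ r₂ : ℝ) : IsOpen (box t₀ r₁ r₂ : Set (Ph d)) :=
  (isOpen_lt (continuous_pos t₀).norm continuous_const).inter
    (isOpen_lt continuous_snd.norm continuous_const)

theorem volume_box_pos (t₀ : ℝ) {r₁ r₂ : ℝ} (h₁ : 0 < r₁) (h₂ : 0 < r₂) :
    volume (box t₀ r₁ r₂ : Set (Ph d)) ≠ 0 :=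
  (isOpen_box t₀ r₁ r₂).measure_ne_zero _ ⟨0, by simp [box, pos, h₁, h₂]⟩

theorem volume_box_lt_top (t₀ r₁ r₂ : ℝ) : volume (box t₀ r₁ r₂ : Set (Ph d)) ≠ ∞ := by
  refine (Bornology.IsBounded.measure_lt_top ?_).ne
  refine (isBounded_closedBall (x := (0 : Ph d)) (r := r₁ + |2 * t₀| * r₂ + r₂)).subset ?_
  rintro Δ ⟨h₁, h₂⟩
  have h3 : ‖Δ.1‖ ≤ ‖pos t₀ Δ‖ + |2 * t₀| * ‖Δ.2‖ := by
    rw [← Real.norm_eq_abs, ← norm_smul]
    refine le_trans (le_of_eq ?_) (norm_add_le _ _)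
    rw [pos, sub_add_cancel]
  have h4 : |2 * t₀| * ‖Δ.2‖ ≤ |2 * t₀| * r₂ := by gcongr
  have h5 := norm_nonneg (pos t₀ Δ)
  have h6 := norm_nonneg Δ.2
  have h7 : 0 ≤ |2 * t₀| * ‖Δ.2‖ := by positivity
  rw [mem_closedBall_zero_iff, Prod.norm_def, max_le_iff]
  constructor <;> linarith

theorem volume_box_three (t₀ r₁ r₂ : ℝ) :
    volume (box t₀ (3 * r₁) (3 * r₂) : Set (Ph d)) = 9 ^ d * volume (box t₀ r₁ r₂ : Set (Ph d)) := by
  have h : (box t₀ (3 * r₁) (3 * r₂) : Set (Ph d)) = (3 : ℝ) • box t₀ r₁ r₂ := by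
    ext Δ
    rw [mem_smul_set_iff_inv_smul_mem₀ (by norm_num)]
    simp only [box, mem_ofPred_eq, pos_smul, Prod.smul_snd, norm_smul, norm_inv, Real.norm_ofNat]
    constructor <;> rintro ⟨h₁, h₂⟩ <;> constructor <;> linarith
  rw [h, Measure.addHaar_smul, finrank_Ph, ← two_mul, pow_mul, abs_of_nonneg (by positivity),
    ENNReal.ofReal_pow (by positivity)]
  norm_num

theorem norm_le_sqrt_mul {x : V d} {r : ℝ} (hr : 0 < r) (h : ‖x‖ ≤ 2 * r) :
    ‖x‖ ≤ 2 * Real.sqrt d * r := by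
  rcases Nat.eq_zero_or_pos d with rfl | hd
  · simp [Subsingleton.elim x 0]
  · have : 1 ≤ Real.sqrt d := Real.one_le_sqrt.2 (by exact_mod_cast hd)
    nlinarith

theorem enorm_add_sq_le (x y : ℂ) : ‖x + y‖ₑ ^ 2 ≤ 2 * ‖x‖ₑ ^ 2 + 2 * ‖y‖ₑ ^ 2 := by
  simp only [← ofReal_norm, ← ENNReal.ofReal_pow (norm_nonneg _)]
  rw [← ENNReal.ofReal_ofNat, ← ENNReal.ofReal_mul zero_le_two, ← ENNReal.ofReal_mul zero_le_two,
    ← ENNReal.ofReal_add (by positivity) (by positivity)]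
  refine ENNReal.ofReal_le_ofReal ?_
  nlinarith [pow_le_pow_left₀ (norm_nonneg _) (norm_add_le x y) 2, sq_nonneg (‖x‖ - ‖y‖)]

/-- the local step of the transfer: weight `w` on `B`, weight `w'` on `N ⊇ B`, far part `F` -/
theorem transfer_local {a a' : ℝ} (ha : 0 < a) (ha' : 0 < a') (t t' : ℝ) {c : Ph d → ℂ}
    (hc : MemLp c 2 volume) {B N : Set (Ph d)} (hN : MeasurableSet N) {w w' : Ph d → ℝ≥0∞}
    {Wm : ℝ≥0∞} (hm : ∀ β, w β ≤ Wm) (hWW : ∀ β ∈ B, ∀ β' ∈ N, w β ≤ w' β') {s : ℝ}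
    (hs : ∀ β ∈ B, ∀ β' ∉ N, s ≤ Qf a t a' t' (β - β')) :
    ∫⁻ β, B.indicator 1 β * (w β * ‖co a t (syn a' t' c) β‖ₑ ^ 2) ≤
      2 * (∫⁻ β', N.indicator 1 β' * (w' β' * ‖c β'‖ₑ ^ 2)) +
      ∫⁻ β, B.indicator 1 β *
        (2 * Wm * (∫⁻ β', farK a t a' t' s (β - β') * ‖c β'‖ₑ) ^ 2) := by
  have hc₁ : MemLp (N.indicator c) 2 volume := hc.indicator hN
  have hc₂ : MemLp (Nᶜ.indicator c) 2 volume := hc.indicator hN.compl
  set m : ℝ≥0∞ := ⨆ β ∈ B, w β with hm'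
  set G₁ := co a t (syn a' t' (N.indicator c)) with hG₁
  have hG₁m : AEMeasurable (fun β => ‖G₁ β‖ₑ ^ 2) volume :=
    (memLp_co ha t _).1.enorm.pow_const 2
  have h1 : ∀ β, B.indicator 1 β * (w β * ‖co a t (syn a' t' c) β‖ₑ ^ 2) ≤
      2 * m * ‖G₁ β‖ₑ ^ 2 + B.indicator 1 β *
        (2 * Wm * (∫⁻ β', farK a t a' t' s (β - β') * ‖c β'‖ₑ) ^ 2) := fun β => by
    by_cases hβ : β ∈ B
    swap
    · simp [hβ]
    simp only [indicator_of_mem hβ, Pi.one_apply, one_mul]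
    have e : co a t (syn a' t' c) β = G₁ β + co a t (syn a' t' (Nᶜ.indicator c)) β := by
      conv_lhs => rw [← indicator_self_add_compl N c, syn_add ha' t' hc₁ hc₂]
      exact inner_add_right _ _ _
    have f : ‖co a t (syn a' t' (Nᶜ.indicator c)) β‖ₑ ≤
        ∫⁻ β', farK a t a' t' s (β - β') * ‖c β'‖ₑ := by
      refine (enorm_co_syn_le ha ha' t t' hc₂ β (s := s) fun β' h => hs β hβ β' fun h' => h ?_).trans
        (lintegral_mono fun β' => mul_le_mul' le_rfl ?_)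
      · exact indicator_of_notMem (not_not.2 h') _
      · by_cases h : β' ∈ Nᶜ <;> simp [indicator, h]
    have g : w β ≤ m := le_iSup₂_of_le β hβ le_rfl
    rw [e]
    calc _ ≤ w β * (2 * ‖G₁ β‖ₑ ^ 2 + 2 * ‖co a t (syn a' t' (Nᶜ.indicator c)) β‖ₑ ^ 2) :=
          mul_le_mul' le_rfl (enorm_add_sq_le _ _)
      _ = 2 * w β * ‖G₁ β‖ₑ ^ 2 + 2 * w β * ‖co a t (syn a' t' (Nᶜ.indicator c)) β‖ₑ ^ 2 := by
          ring
      _ ≤ _ := by gcongr; exact hm β
  refine (lintegral_mono h1).trans ?_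
  rw [lintegral_add_left' (hG₁m.const_mul _), lintegral_const_mul'' _ hG₁m, mul_assoc]
  refine add_le_add (mul_le_mul' le_rfl ?_) le_rfl
  have h2 : ∫⁻ β, ‖G₁ β‖ₑ ^ 2 ≤ ∫⁻ β', ‖N.indicator c β'‖ₑ ^ 2 := by
    rw [lintegral_enorm_sq_eq (memLp_co ha t _), lintegral_enorm_sq_eq hc₁, integral_co_sq ha]
    exact ENNReal.ofReal_le_ofReal (norm_syn_sq_le ha' t' hc₁)
  refine (mul_le_mul' le_rfl h2).trans ((lintegral_const_mul_le _ _).trans (lintegral_mono fun β' => ?_))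
  by_cases h : β' ∈ N
  · simp only [indicator_of_mem h, Pi.one_apply, one_mul]
    exact mul_le_mul' (iSup₂_le fun β hβ => hWW β hβ β' h) le_rfl
  · simp [h]

/-- TR: transfer of a weight between two frames (averaged boxes + contraction + far Schur test) -/
theorem transfer {a a' : ℝ} (ha : 0 < a) (ha' : 0 < a') (t t' t₀ : ℝ) {c : Ph d → ℂ}
    (hc : MemLp c 2 volume) {W W' : Ph d → ℝ} (hW : Measurable W) (hW' : Measurable W')
    {Wm : ℝ} (h0 : ∀ β, 0 ≤ W β) (h0' : ∀ β, 0 ≤ W' β) (hm : ∀ β, W β ≤ Wm) (hm' : ∀ β, W' β ≤ Wm)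
    {r₁ r₂ s : ℝ} (hr₁ : 0 < r₁) (hr₂ : 0 < r₂)
    (hWW : ∀ β β', ‖pos t₀ (β - β')‖ ≤ 2 * Real.sqrt d * r₁ → ‖(β - β').2‖ ≤ 2 * Real.sqrt d * r₂ →
      W β ≤ W' β')
    (hs : ∀ Δ : Ph d, r₁ ≤ ‖pos t₀ Δ‖ ∨ r₂ ≤ ‖Δ.2‖ → s ≤ Qf a t a' t' Δ) :
    ∫ β, W β * ‖co a t (syn a' t' c) β‖ ^ 2 ≤
      2 * 9 ^ d * (∫ β', W' β' * ‖c β'‖ ^ 2) +
      2 * Wm * 16 ^ d * Real.exp (-Real.pi * s) / pre d a t a' t' ^ 2 * ∫ β', ‖c β'‖ ^ 2 := by
  have hp := pre_pos (d := d) ha ha' t t'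
  have hWm : 0 ≤ Wm := (h0 0).trans (hm 0)
  set B : Set (Ph d) := box t₀ (r₁ / 2) (r₂ / 2) with hB
  set N : Set (Ph d) := box t₀ (3 * (r₁ / 2)) (3 * (r₂ / 2)) with hN
  have hBm : MeasurableSet B := (isOpen_box _ _ _).measurableSet
  have hNm : MeasurableSet N := (isOpen_box _ _ _).measurableSet
  have hB1 : Measurable (B.indicator (1 : Ph d → ℝ≥0∞)) := measurable_one.indicator hBm
  have hN1 : Measurable (N.indicator (1 : Ph d → ℝ≥0∞)) := measurable_one.indicator hNm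
  have hk := measurable_farK (d := d) a t a' t' s
  set F : Ph d → ℝ≥0∞ := fun β => ∫⁻ β', farK a t a' t' s (β - β') * ‖c β'‖ₑ with hF
  have hFm : AEMeasurable F volume := aemeasurable_conv hk hc.1.enorm
  set g : Ph d → ℝ≥0∞ := fun β => ENNReal.ofReal (W β) * ‖co a t (syn a' t' c) β‖ₑ ^ 2 with hg
  set g' : Ph d → ℝ≥0∞ := fun β => ENNReal.ofReal (W' β) * ‖c β‖ₑ ^ 2 with hg'
  set g'' : Ph d → ℝ≥0∞ := fun β => 2 * ENNReal.ofReal Wm * F β ^ 2 with hg''
  have hgm : AEMeasurable g volume :=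
    hW.ennreal_ofReal.aemeasurable.mul ((memLp_co ha t _).1.enorm.pow_const 2)
  have hgm' : AEMeasurable g' volume :=
    hW'.ennreal_ofReal.aemeasurable.mul (hc.1.enorm.pow_const 2)
  have hgm'' : AEMeasurable g'' volume := (hFm.pow_const 2).const_mul _
  have hloc : ∀ γ : Ph d, ∫⁻ β, B.indicator 1 (γ - β) * g β ≤
      2 * (∫⁻ β, N.indicator 1 (γ - β) * g' β) + ∫⁻ β, B.indicator 1 (γ - β) * g'' β := fun γ => by
    have tri : ∀ β β' : Ph d, β - β' = (γ - β') - (γ - β) := fun β β' => by abel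
    refine transfer_local ha ha' t t' hc (B := {β | γ - β ∈ B}) (N := {β | γ - β ∈ N})
      ((measurable_const.sub measurable_id) hNm) (fun β => ENNReal.ofReal_le_ofReal (hm β))
      (fun β hβ β' hβ' => ENNReal.ofReal_le_ofReal (hWW β β' (norm_le_sqrt_mul hr₁ ?_)
        (norm_le_sqrt_mul hr₂ ?_))) (fun β hβ β' hβ' => hs _ ?_)
    · rw [tri, pos_sub]
      linarith [norm_sub_le (pos t₀ (γ - β')) (pos t₀ (γ - β)), hβ.1, hβ'.1]
    · rw [tri, Prod.snd_sub]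
      linarith [norm_sub_le (γ - β').2 (γ - β).2, hβ.2, hβ'.2]
    · rw [tri, pos_sub, Prod.snd_sub]
      by_contra hcon
      push Not at hcon
      refine hβ' ⟨?_, ?_⟩
      · linarith [norm_sub_norm_le (pos t₀ (γ - β')) (pos t₀ (γ - β)), hβ.1, hcon.1]
      · linarith [norm_sub_norm_le (γ - β').2 (γ - β).2, hβ.2, hcon.2]
  have h1 := lintegral_mono (μ := volume) hloc
  rw [lintegral_add_left' ((aemeasurable_conv hN1 hgm').const_mul _),
    lintegral_const_mul'' _ (aemeasurable_conv hN1 hgm'), lintegral_conv hB1 hgm,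
    lintegral_conv hN1 hgm', lintegral_conv hB1 hgm'', lintegral_indicator_one hBm,
    lintegral_indicator_one hNm, hN, volume_box_three, ← hB] at h1
  have h2 : ∫⁻ β, g β ≤ 2 * 9 ^ d * (∫⁻ β, g' β) + ∫⁻ β, g'' β := by
    refine (ENNReal.mul_le_mul_iff_right (volume_box_pos t₀ (half_pos hr₁) (half_pos hr₂))
      (volume_box_lt_top t₀ _ _)).1 (h1.trans_eq ?_)
    rw [← hB]; ring
  have h3 : ∫⁻ β, g'' β ≤ ENNReal.ofReal (2 * Wm * 16 ^ d * Real.exp (-Real.pi * s) /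
      pre d a t a' t' ^ 2 * ∫ β', ‖c β'‖ ^ 2) := by
    rw [hg'', lintegral_const_mul'' _ (hFm.pow_const 2)]
    refine (mul_le_mul' le_rfl (lintegral_conv_sq_le hk hc.1.enorm)).trans_eq ?_
    unfold farK
    rw [lintegral_exp_Qf ha ha' t t' one_half_pos (by positivity), lintegral_enorm_sq_eq hc,
      ← ENNReal.ofReal_pow (by positivity), ← ENNReal.ofReal_mul (by positivity),
      show 2 * ENNReal.ofReal Wm = ENNReal.ofReal (2 * Wm) by
        rw [ENNReal.ofReal_mul zero_le_two, ENNReal.ofReal_ofNat],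
      ← ENNReal.ofReal_mul (by positivity)]
    congr 1
    have e1 : Real.exp (-Real.pi * s) = Real.exp (-Real.pi * s / 2) ^ 2 := by
      rw [← Real.exp_nat_mul]; congr 1; push_cast; ring
    have e2 : (16 : ℝ) ^ d = ((2 / (1 / 2)) ^ d) ^ 2 := by
      rw [← pow_mul, mul_comm, pow_mul]; norm_num
    rw [e1, e2]; field_simp
  have i1 : 0 ≤ ∫ β', W' β' * ‖c β'‖ ^ 2 :=
    integral_nonneg fun β => mul_nonneg (h0' β) (by positivity)
  have i2 : 0 ≤ ∫ β', ‖c β'‖ ^ 2 := integral_nonneg fun β => by positivity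
  have h4 := h2.trans (add_le_add le_rfl h3)
  rw [hg, hg', lintegral_weight_enorm_sq_eq (memLp_co ha t _) hW h0 hm,
    lintegral_weight_enorm_sq_eq hc hW' h0' hm',
    show (2 * 9 ^ d : ℝ≥0∞) = ENNReal.ofReal (2 * 9 ^ d) by
      rw [ENNReal.ofReal_mul zero_le_two, ENNReal.ofReal_pow (by positivity), ENNReal.ofReal_ofNat,
        ENNReal.ofReal_ofNat],
    ← ENNReal.ofReal_mul (by positivity),
    ← ENNReal.ofReal_add (by positivity) (by positivity)] at h4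
  exact (ENNReal.ofReal_le_ofReal_iff (by positivity)).1 h4

end Crest.Agent.N76.G
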